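import Vale.Agent.P141.H555.Lev
import Vale.Agent.P141.H834.MomF

/-!
# P141, line W, CE, module M9 (Flat): the critical levels of a flat gauge

Box `A × B` of the matrix variables, fibre variable `z ∈ C`, gauge `|a| ≤ h`, slices
`sl a G z x y = a x y * G (x, y, z)` with singular data `IsSvd` for every `z`.  Letters:
`E0 = e |a|₂²` (trivial energy), `D2 = δ² h |a|₂` (square of the critical level), `E0 * D2` (critical
fourth moment).

* `sign_test`: one pair of scalar tests for any set of levels;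
* `cnt6`, `cnt4`: counts of levels;
* `cut_low`, `cut_high`: levels below `√(κ D2)` and above `√(D2 / κ)` carry `O(κ)` of the critical
  moment;
* `flat_energy`, `flat_count`: if the slices carry `≥ 21000 κ` of the critical moment, the levels in
  between have energy `≥ 10000 κ² E0`;
* `row_flat`, `col_flat`, `mass_lev`, `height_flat`: the test functions
  `u i = √(σ s i) φ i`, `v i = √(σ s i) ψ i` of these levels are flat.
-/

namespace Vale.Agent.P141.H694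

noncomputable section

open scoped BigOperators
open Finset Vale.Agent.P141.PL.H315 Vale.Agent.P141.H315 Vale.Agent.P141.H550 Vale.Agent.P141.H769
  Vale.Agent.P141.H834
open Vale.Agent.P141.H922 (n2 n4 nN n2_nonneg n4_nonneg nN_nonneg n2_sq n4_sq n4_four nN_sq)
open Vale.Agent.P141.H319 (av rs sg av_rs_four av_sum av_mono av_mul_left av_add)
open Vale.Agent.P141.H555 (IsSvd lev)

section

variable {A B C : Finset ℤ} {M : ℤ → ℤ → ℤ → ℝ} {s : ℤ → A → ℝ} {φ ψ : ℤ → A → ℤ → ℝ}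

/-- averaged number of the levels in `L` -/
def num {A : Finset ℤ} (C : Finset ℤ) (L : ℤ → Finset A) : ℝ := avg C fun z => ((L z).card : ℝ)

theorem num_nonneg (C : Finset ℤ) (L : ℤ → Finset A) : 0 ≤ num C L :=
  avg_nonneg fun _ _ => Nat.cast_nonneg _

/-- the levels between `σ` and `σ₁` -/
def band {A : Finset ℤ} (s : ℤ → A → ℝ) (σ σ1 : ℝ) (z : ℤ) : Finset A := by
  classical exact univ.filter fun i => σ ≤ s z i ∧ s z i < σ1

/-- the levels from `σ` on -/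
def upp {A : Finset ℤ} (s : ℤ → A → ℝ) (σ : ℝ) (z : ℤ) : Finset A := by
  classical exact univ.filter fun i => σ ≤ s z i

theorem mem_band {σ σ1 : ℝ} {z : ℤ} {i : A} : i ∈ band s σ σ1 z ↔ σ ≤ s z i ∧ s z i < σ1 := by
  unfold band; simp

theorem mem_upp {σ : ℝ} {z : ℤ} {i : A} : i ∈ upp s σ z ↔ σ ≤ s z i := by
  unfold upp; simp

/-- random signs: the square average of a signed sum with weights -/
theorem signed_sq {ι X : Type*} [Fintype ι] [DecidableEq ι] {Q : Finset X} {I : Finset ι}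
    {f : ι → X → ℝ}
    (h : ∀ i ∈ I, ∀ j ∈ I, (avg Q fun x => f i x * f j x) = if i = j then 1 else 0)
    (c : ι → ℝ) (ε : ι → Bool) :
    (avg Q fun x => rs I (fun i => c i * f i x) ε ^ 2) = ∑ i ∈ I, c i ^ 2 := by
  have e1 : ∀ x, rs I (fun i => c i * f i x) ε = ∑ i ∈ I, (sg (ε i) * c i) * f i x := by
    intro x
    unfold rs
    exact sum_congr rfl fun i _ => by ring
  simp only [e1]
  rw [H555.avg_sq_sum h fun i => sg (ε i) * c i]
  exact sum_congr rfl fun i _ => by rw [mul_pow, H319.sg_sq, one_mul]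

/-- **The tests**, for any finite sets of levels and weights. -/
theorem sign_test (hS : ∀ z, IsSvd A B (M z) (s z) (φ z) (ψ z)) (L : ℤ → Finset A)
    (hL : ∀ z, ∀ i ∈ L z, 0 < s z i) (w : ℤ → A → ℝ) {β : ℝ}
    (hb : (avg C fun z => avg A fun x => (∑ i ∈ L z, w z i ^ 2 * φ z i x ^ 2) ^ 2) ≤ β)
    (hc : (avg C fun z => avg B fun y => (∑ i ∈ L z, w z i ^ 2 * ψ z i y ^ 2) ^ 2) ≤ β) :
    ∃ b c : ℤ × ℤ → ℝ, (avg (A ×ˢ C) fun q => b q ^ 2) = (avg C fun z => ∑ i ∈ L z, w z i ^ 2) ∧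
      (avg (B ×ˢ C) fun q => c q ^ 2) = (avg C fun z => ∑ i ∈ L z, w z i ^ 2) ∧
      (avg (A ×ˢ C) fun q => b q ^ 4) ≤ 6 * β ∧ (avg (B ×ˢ C) fun q => c q ^ 4) ≤ 6 * β ∧
      (avg C fun z => avg A fun x => avg B fun y => M z x y * (b (x, z) * c (y, z))) =
        avg C fun z => ∑ i ∈ L z, w z i ^ 2 * s z i := by
  classical
  set bb : (A → Bool) → ℤ × ℤ → ℝ := fun ε q => rs (L q.2) (fun i => w q.2 i * φ q.2 i q.1) ε
    with hbb
  set cc : (A → Bool) → ℤ × ℤ → ℝ := fun ε q => rs (L q.2) (fun i => w q.2 i * ψ q.2 i q.1) ε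
    with hcc
  have hb2 : ∀ ε z, (avg A fun x => bb ε (x, z) ^ 2) = ∑ i ∈ L z, w z i ^ 2 := by
    intro ε z
    have h := signed_sq (Q := A) (I := L z) (f := φ z) (fun i _ j _ => (hS z).oL i j) (w z) ε
    exact h
  have hc2 : ∀ ε z, (avg B fun y => cc ε (y, z) ^ 2) = ∑ i ∈ L z, w z i ^ 2 := by
    intro ε z
    have h := signed_sq (Q := B) (I := L z) (f := ψ z) ((hS z).oR' (hL z)) (w z) ε
    exact h
  have h4 : ∀ (Q : Finset ℤ) (f : ℤ → A → ℤ → ℝ),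
      (avg C fun z => avg Q fun x => (∑ i ∈ L z, w z i ^ 2 * f z i x ^ 2) ^ 2) ≤ β →
      av (fun ε => avg (Q ×ˢ C) fun q => rs (L q.2) (fun i => w q.2 i * f q.2 i q.1) ε ^ 4) ≤
        3 * β := by
    intro Q f hf
    have e1 : av (fun ε => avg (Q ×ˢ C) fun q =>
        rs (L q.2) (fun i => w q.2 i * f q.2 i q.1) ε ^ 4) =
        avg (Q ×ˢ C) fun q => av fun ε => rs (L q.2) (fun i => w q.2 i * f q.2 i q.1) ε ^ 4 := by
      unfold avg
      rw [av_mul_left, av_sum]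
    rw [e1]
    refine (avg_mono fun q _ => av_rs_four (L q.2) _).trans ?_
    rw [avg_mul_left]
    refine mul_le_mul_of_nonneg_left ?_ (by norm_num)
    rw [avg_prod, avg_comm]
    refine le_trans (le_of_eq ?_) hf
    refine avg_congr fun z _ => avg_congr fun x _ => ?_
    simp only [mul_pow]
  obtain ⟨ε, hε⟩ := exists_le_av (fun ε : A → Bool =>
    (avg (A ×ˢ C) fun q => bb ε q ^ 4) + avg (B ×ˢ C) fun q => cc ε q ^ 4)
  rw [av_add] at hε
  have t1 := h4 A φ hb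
  have t2 := h4 B ψ hc
  have n1 : 0 ≤ avg (A ×ˢ C) fun q => bb ε q ^ 4 := avg_nonneg fun _ _ => by positivity
  have n2' : 0 ≤ avg (B ×ˢ C) fun q => cc ε q ^ 4 := avg_nonneg fun _ _ => by positivity
  refine ⟨bb ε, cc ε, ?_, ?_, by linarith, by linarith, ?_⟩
  · rw [avg_prod, avg_comm]
    exact avg_congr fun z _ => hb2 ε z
  · rw [avg_prod, avg_comm]
    exact avg_congr fun z _ => hc2 ε z
  · refine avg_congr fun z _ => ?_
    have e1 : ∀ x ∈ A, (avg B fun y => M z x y * (bb ε (x, z) * cc ε (y, z))) =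
        bb ε (x, z) * ∑ j ∈ L z, sg (ε j) * (w z j * (s z j * φ z j x)) := by
      intro x hx
      have e2 : ∀ y, M z x y * (bb ε (x, z) * cc ε (y, z)) =
          bb ε (x, z) * (M z x y * ∑ j ∈ L z, sg (ε j) * (w z j * ψ z j y)) := by
        intro y
        simp only [hcc]
        unfold rs
        ring
      simp only [e2]
      rw [avg_mul_left, H555.avg_sum_mul]
      congr 1
      refine sum_congr rfl fun j _ => ?_
      rw [← (hS z).appL j x hx, ← avg_mul_left, ← avg_mul_left]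
      exact avg_congr fun y _ => by ring
    rw [avg_congr e1]
    have e3 : ∀ x, bb ε (x, z) * ∑ j ∈ L z, sg (ε j) * (w z j * (s z j * φ z j x)) =
        ∑ i ∈ L z, ∑ j ∈ L z, (sg (ε i) * sg (ε j) * (w z i * w z j * s z j)) *
          (φ z i x * φ z j x) := by
      intro x
      simp only [hbb]
      unfold rs
      rw [Finset.sum_mul_sum]
      exact sum_congr rfl fun i _ => sum_congr rfl fun j _ => by ring
    simp only [e3]
    rw [avg_sum]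
    refine sum_congr rfl fun i hi => ?_
    rw [avg_sum]
    have e4 : ∀ j ∈ L z, (avg A fun x => (sg (ε i) * sg (ε j) * (w z i * w z j * s z j)) *
        (φ z i x * φ z j x)) = if i = j then w z i ^ 2 * s z i else 0 := by
      intro j _
      rw [avg_mul_left, (hS z).oL]
      split_ifs with hij
      · subst hij
        have := H319.sg_sq (ε i)
        calc sg (ε i) * sg (ε i) * (w z i * w z i * s z i) * 1 =
            sg (ε i) ^ 2 * (w z i ^ 2 * s z i) := by ring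
          _ = w z i ^ 2 * s z i := by rw [this, one_mul]
      · rw [mul_zero]
    rw [sum_congr rfl e4, sum_ite_eq, if_pos hi]

end

section

variable {δ e h : ℝ} {A B C : Finset ℤ} {a : ℤ → ℤ → ℝ} {G : ℤ × ℤ × ℤ → ℝ} {s : ℤ → A → ℝ}
  {φ ψ : ℤ → A → ℤ → ℝ}

/-- the rows of a flat gauge -/
theorem row_h (_hh : 0 ≤ h) (hL : LineB e A B C G) (ha : ∀ x ∈ A, ∀ y ∈ B, |a x y| ≤ h)
    {z : ℤ} (hz : z ∈ C) {x : ℤ} (hx : x ∈ A) : (avg B fun y => sl a G z x y ^ 2) ≤ h ^ 2 * e := by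
  have h1 : (avg B fun y => sl a G z x y ^ 2) ≤ h ^ 2 * avg B fun y => G (x, y, z) ^ 2 := by
    rw [← avg_mul_left]
    refine avg_mono fun y hy => ?_
    unfold sl
    rw [mul_pow]
    refine mul_le_mul_of_nonneg_right ?_ (sq_nonneg _)
    have := ha x hx y hy
    rw [← sq_abs]
    exact pow_le_pow_left₀ (abs_nonneg _) this 2
  exact h1.trans (mul_le_mul_of_nonneg_left (hL.l2 x hx z hz) (sq_nonneg _))

/-- the columns of a flat gauge -/
theorem col_h (_hh : 0 ≤ h) (hL : LineB e A B C G) (ha : ∀ x ∈ A, ∀ y ∈ B, |a x y| ≤ h)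
    {z : ℤ} (hz : z ∈ C) {y : ℤ} (hy : y ∈ B) : (avg A fun x => sl a G z x y ^ 2) ≤ h ^ 2 * e := by
  have h1 : (avg A fun x => sl a G z x y ^ 2) ≤ h ^ 2 * avg A fun x => G (x, y, z) ^ 2 := by
    rw [← avg_mul_left]
    refine avg_mono fun x hx => ?_
    unfold sl
    rw [mul_pow]
    refine mul_le_mul_of_nonneg_right ?_ (sq_nonneg _)
    have := ha x hx y hy
    rw [← sq_abs]
    exact pow_le_pow_left₀ (abs_nonneg _) this 2
  exact h1.trans (mul_le_mul_of_nonneg_left (hL.l1 y hy z hz) (sq_nonneg _))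

/-- energy of the slices -/
theorem energy_svd (hL : LineB e A B C G) (hS : ∀ z, IsSvd A B (sl a G z) (s z) (φ z) (ψ z)) :
    (avg C fun z => ∑ i, s z i ^ 2) ≤ e * n2 (A ×ˢ B) (gf a) ^ 2 := by
  refine le_trans (le_of_eq ?_) (energy_le hL a)
  unfold mo2
  exact avg_congr fun z _ => (hS z).sum_sq

/-- energy of levels -/
theorem energy_lev (hL : LineB e A B C G) (hS : ∀ z, IsSvd A B (sl a G z) (s z) (φ z) (ψ z))
    (L : ℤ → Finset A) : (avg C fun z => ∑ i ∈ L z, s z i ^ 2) ≤ e * n2 (A ×ˢ B) (gf a) ^ 2 :=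
  (avg_mono fun z _ => sum_le_sum_of_subset_of_nonneg (subset_univ _)
    fun _ _ _ => sq_nonneg _).trans (energy_svd hL hS)

/-- rows of a set of levels from `σ` on -/
theorem phi_rows {σ : ℝ} (hσ : 0 < σ) (hh : 0 ≤ h) (hL : LineB e A B C G)
    (ha : ∀ x ∈ A, ∀ y ∈ B, |a x y| ≤ h)
    (hS : ∀ z, IsSvd A B (sl a G z) (s z) (φ z) (ψ z)) {L : ℤ → Finset A}
    (hLσ : ∀ z, ∀ i ∈ L z, σ ≤ s z i) {z : ℤ} (hz : z ∈ C) {x : ℤ} (hx : x ∈ A) :
    ∑ i ∈ L z, φ z i x ^ 2 ≤ h ^ 2 * e / σ ^ 2 := by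
  rw [le_div_iff₀ (by positivity), mul_comm, mul_sum]
  refine le_trans (sum_le_sum fun i hi => mul_le_mul_of_nonneg_right
    (pow_le_pow_left₀ hσ.le (hLσ z i hi) 2) (sq_nonneg _)) ?_
  refine (sum_le_sum_of_subset_of_nonneg (subset_univ _) fun _ _ _ => by positivity).trans ?_
  rw [(hS z).row hx]
  exact row_h hh hL ha hz hx

/-- columns of a set of levels from `σ` on -/
theorem psi_rows {σ : ℝ} (hσ : 0 < σ) (hh : 0 ≤ h) (hL : LineB e A B C G)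
    (ha : ∀ x ∈ A, ∀ y ∈ B, |a x y| ≤ h)
    (hS : ∀ z, IsSvd A B (sl a G z) (s z) (φ z) (ψ z)) {L : ℤ → Finset A}
    (hLσ : ∀ z, ∀ i ∈ L z, σ ≤ s z i) {z : ℤ} (hz : z ∈ C) {y : ℤ} (hy : y ∈ B) :
    ∑ i ∈ L z, ψ z i y ^ 2 ≤ h ^ 2 * e / σ ^ 2 := by
  rw [le_div_iff₀ (by positivity), mul_comm, mul_sum]
  refine le_trans (sum_le_sum fun i hi => mul_le_mul_of_nonneg_right
    (pow_le_pow_left₀ hσ.le (hLσ z i hi) 2) (sq_nonneg _)) ?_
  refine (sum_le_sum_of_subset_of_nonneg (subset_univ _) fun _ _ _ => by positivity).trans ?_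
  rw [(hS z).col hy]
  exact col_h hh hL ha hz hy

/-- **Count of a set of levels from `σ` on, flat gauge.** -/
theorem cnt6 (hδ : 0 ≤ δ) (he : 0 ≤ e) (hh : 0 ≤ h) (hU : UnifP δ A B C G)
    (hL : LineB e A B C G) (ha : ∀ x ∈ A, ∀ y ∈ B, |a x y| ≤ h)
    (hS : ∀ z, IsSvd A B (sl a G z) (s z) (φ z) (ψ z)) {L : ℤ → Finset A} {σ : ℝ} (hσ : 0 < σ)
    (hLσ : ∀ z, ∀ i ∈ L z, σ ≤ s z i) :
    σ ^ 6 * num C L ≤ 486 * δ ^ 4 * e * h ^ 2 * n2 (A ×ˢ B) (gf a) ^ 4 := by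
  classical
  set p := n2 (A ×ˢ B) (gf a) with hp
  set q := n4 (A ×ˢ B) (gf a) with hq
  have hp0 : 0 ≤ p := n2_nonneg _ _
  have hq0 : 0 ≤ q := n4_nonneg _ _
  set n := num C L with hn
  have hn0 : 0 ≤ n := num_nonneg C L
  have hpos : ∀ z, ∀ i ∈ L z, 0 < s z i := fun z i hi => hσ.trans_le (hLσ z i hi)
  have hen' : n ≤ e * p ^ 2 / σ ^ 2 := by
    rw [le_div_iff₀ (by positivity), mul_comm]
    refine le_trans ?_ (energy_lev hL hS L)
    rw [hn]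
    unfold num
    rw [← avg_mul_left]
    refine avg_mono fun z _ => ?_
    rw [mul_comm, ← nsmul_eq_mul]
    exact card_nsmul_le_sum _ _ _ fun i hi => pow_le_pow_left₀ hσ.le (hLσ z i hi) 2
  have hq2 : q ^ 2 ≤ h * p := n4_sq_le_of_abs_le hh ha
  set R : ℝ := h ^ 2 * e / σ ^ 2 with hR
  have hR0 : 0 ≤ R := by positivity
  set β : ℝ := R * n with hβ
  have hβ0 : 0 ≤ β := by positivity
  set S : ℝ := √(6 * β) with hSS
  have hS0 : 0 ≤ S := Real.sqrt_nonneg _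
  have hS2 : S ^ 2 = 6 * β := Real.sq_sqrt (by positivity)
  have hhn : h * n ≤ S * p := by
    refine abs_le_of_sq_le_sq' ?_ (by positivity) |>.2
    rw [mul_pow, mul_pow, hS2, hβ, hR]
    calc h ^ 2 * n ^ 2 = h ^ 2 * n * n := by ring
      _ ≤ h ^ 2 * n * (e * p ^ 2 / σ ^ 2) := mul_le_mul_of_nonneg_left hen' (by positivity)
      _ = 1 * (h ^ 2 * e / σ ^ 2 * n * p ^ 2) := by ring
      _ ≤ 6 * (h ^ 2 * e / σ ^ 2 * n * p ^ 2) :=
          mul_le_mul_of_nonneg_right (by norm_num) (by positivity)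
      _ = 6 * (h ^ 2 * e / σ ^ 2 * n) * p ^ 2 := by ring
  have hone : ∀ z, ∑ i ∈ L z, (1 : ℝ) ^ 2 = ((L z).card : ℝ) := fun z => by simp
  -- the tests
  obtain ⟨b, c, hb2, hc2, hb4, hc4, hM⟩ := sign_test (C := C) hS L hpos (fun _ _ => 1) (β := β)
    (by
      simp only [one_pow, one_mul]
      rw [hβ, hn]
      unfold num
      rw [← avg_mul_left]
      refine avg_mono fun z hz => ?_
      have e1 : (avg A fun x => ∑ i ∈ L z, φ z i x ^ 2) = ((L z).card : ℝ) := by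
        rw [avg_sum, sum_congr rfl fun i _ => (hS z).norm_phi i]
        simp
      rw [← e1, ← avg_mul_left]
      refine avg_mono fun x hx => ?_
      rw [sq]
      exact mul_le_mul_of_nonneg_right (phi_rows hσ hh hL ha hS hLσ hz hx)
        (sum_nonneg fun _ _ => sq_nonneg _))
    (by
      simp only [one_pow, one_mul]
      rw [hβ, hn]
      unfold num
      rw [← avg_mul_left]
      refine avg_mono fun z hz => ?_
      have e1 : (avg B fun y => ∑ i ∈ L z, ψ z i y ^ 2) = ((L z).card : ℝ) := by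
        rw [avg_sum, sum_congr rfl fun i hi => (hS z).norm_psi (hpos z i hi)]
        simp
      rw [← e1, ← avg_mul_left]
      refine avg_mono fun y hy => ?_
      rw [sq]
      exact mul_le_mul_of_nonneg_right (psi_rows hσ hh hL ha hS hLσ hz hy)
        (sum_nonneg fun _ _ => sq_nonneg _))
  simp only [one_pow, sum_const, nsmul_eq_mul, mul_one] at hb2 hc2
  have hM2 : σ * n ≤ avg C fun z => avg A fun x => avg B fun y =>
      sl a G z x y * (b (x, z) * c (y, z)) := by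
    rw [hM, hn]
    unfold num
    rw [← avg_mul_left]
    refine avg_mono fun z _ => ?_
    rw [mul_comm, ← nsmul_eq_mul]
    exact card_nsmul_le_sum _ _ _ fun i hi => by rw [one_pow, one_mul]; exact hLσ z i hi
  have k : σ ^ 2 * n ≤ 9 * δ ^ 2 * (S * p ^ 2) := by
    refine arith (p := p) (q := q) (X := √n) (Y := √√(6 * β)) hσ.le hδ (Real.sqrt_nonneg _)
      (by positivity) (Real.sq_sqrt hn0).symm ?_ ?_ ?_
    · refine abs_le_of_sq_le_sq' ?_ (by positivity) |>.2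
      have e1 : (p * q * (√n * √S)) ^ 2 = S * p ^ 2 * (q ^ 2 * n) := by
        rw [mul_pow, mul_pow, mul_pow, Real.sq_sqrt hn0, Real.sq_sqrt hS0]; ring
      rw [e1]
      calc S * p ^ 2 * (q ^ 2 * n) ≤ S * p ^ 2 * (h * p * n) := by gcongr
        _ = S * p ^ 3 * (h * n) := by ring
        _ ≤ S * p ^ 3 * (S * p) := mul_le_mul_of_nonneg_left hhn (by positivity)
        _ = (S * p ^ 2) ^ 2 := by ring
    · rw [mul_pow, Real.sq_sqrt (Real.sqrt_nonneg _)]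
    · refine hM2.trans (test_unif hδ hU a b c (Real.sqrt_nonneg _) (Real.sqrt_nonneg _) ?_ ?_
        ?_ ?_)
      · unfold n2; rw [hb2]; rfl
      · unfold n2; rw [hc2]; rfl
      · exact Real.sqrt_le_sqrt (Real.sqrt_le_sqrt hb4)
      · exact Real.sqrt_le_sqrt (Real.sqrt_le_sqrt hc4)
  have k1 : (σ ^ 2 * n) ^ 2 ≤ (9 * δ ^ 2 * (S * p ^ 2)) ^ 2 :=
    pow_le_pow_left₀ (by positivity) k 2
  have k2 : (9 * δ ^ 2 * (S * p ^ 2)) ^ 2 = 486 * δ ^ 4 * e * h ^ 2 * p ^ 4 * n / σ ^ 2 := by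
    calc (9 * δ ^ 2 * (S * p ^ 2)) ^ 2 = 81 * δ ^ 4 * S ^ 2 * p ^ 4 := by ring
      _ = _ := by rw [hS2, hβ, hR]; ring
  rw [k2, le_div_iff₀ (by positivity)] at k1
  rcases hn0.eq_or_lt with h0 | hpos'
  · rw [← h0, mul_zero]; positivity
  · refine le_of_mul_le_mul_right ?_ hpos'
    calc σ ^ 6 * n * n = (σ ^ 2 * n) ^ 2 * σ ^ 2 := by ring
      _ ≤ 486 * δ ^ 4 * e * h ^ 2 * p ^ 4 * n := k1

/-- square of the critical level of a gauge with `|a| ≤ h` -/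
def D2 (δ h : ℝ) (A B : Finset ℤ) (a : ℤ → ℤ → ℝ) : ℝ := δ ^ 2 * h * n2 (A ×ˢ B) (gf a)

/-- trivial energy of a gauge -/
def E0 (e : ℝ) (A B : Finset ℤ) (a : ℤ → ℤ → ℝ) : ℝ := e * n2 (A ×ˢ B) (gf a) ^ 2

theorem D2_nonneg (hh : 0 ≤ h) (a : ℤ → ℤ → ℝ) : 0 ≤ D2 δ h A B a := by
  unfold D2; have := n2_nonneg (A ×ˢ B) (gf a); positivity

theorem E0_nonneg (he : 0 ≤ e) (a : ℤ → ℤ → ℝ) : 0 ≤ E0 e A B a := by
  unfold E0; positivity

theorem cnt6' (hδ : 0 ≤ δ) (he : 0 ≤ e) (hh : 0 ≤ h) (hU : UnifP δ A B C G)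
    (hL : LineB e A B C G) (ha : ∀ x ∈ A, ∀ y ∈ B, |a x y| ≤ h)
    (hS : ∀ z, IsSvd A B (sl a G z) (s z) (φ z) (ψ z)) {L : ℤ → Finset A} {σ : ℝ} (hσ : 0 < σ)
    (hLσ : ∀ z, ∀ i ∈ L z, σ ≤ s z i) :
    σ ^ 6 * num C L ≤ 486 * D2 δ h A B a ^ 2 * E0 e A B a := by
  refine (cnt6 hδ he hh hU hL ha hS hσ hLσ).trans (le_of_eq ?_)
  unfold D2 E0; ring

/-- energy of levels below `σ₁` bounds their number from below, and from above from `σ` on -/
theorem num_le {L : ℤ → Finset A} {σ : ℝ} (hσ : 0 ≤ σ) (hLσ : ∀ z, ∀ i ∈ L z, σ ≤ s z i) :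
    σ ^ 2 * num C L ≤ avg C fun z => ∑ i ∈ L z, s z i ^ 2 := by
  unfold num
  rw [← avg_mul_left]
  refine avg_mono fun z _ => ?_
  rw [mul_comm, ← nsmul_eq_mul]
  exact card_nsmul_le_sum _ _ _ fun i hi => pow_le_pow_left₀ hσ (hLσ z i hi) 2

theorem le_num {L : ℤ → Finset A} {σ1 : ℝ} (hs : ∀ z i, 0 ≤ s z i)
    (hLσ : ∀ z, ∀ i ∈ L z, s z i ≤ σ1) :
    (avg C fun z => ∑ i ∈ L z, s z i ^ 2) ≤ σ1 ^ 2 * num C L := by
  unfold num
  rw [← avg_mul_left]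
  refine avg_mono fun z _ => ?_
  rw [mul_comm, ← nsmul_eq_mul]
  exact sum_le_card_nsmul _ _ _ fun i hi => pow_le_pow_left₀ (hs z i) (hLσ z i hi) 2

/-- **6703 (1b), first half**: with `y² = σ² n`, `σ⁴ n ≤ √486 D2 √E0 y`. -/
theorem cnt4 (hδ : 0 ≤ δ) (he : 0 ≤ e) (hh : 0 ≤ h) (hU : UnifP δ A B C G)
    (hL : LineB e A B C G) (ha : ∀ x ∈ A, ∀ y ∈ B, |a x y| ≤ h)
    (hS : ∀ z, IsSvd A B (sl a G z) (s z) (φ z) (ψ z)) {L : ℤ → Finset A} {σ : ℝ} (hσ : 0 < σ)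
    (hLσ : ∀ z, ∀ i ∈ L z, σ ≤ s z i) :
    (σ ^ 4 * num C L) ^ 2 ≤ 486 * D2 δ h A B a ^ 2 * E0 e A B a * (σ ^ 2 * num C L) := by
  have h1 := cnt6' hδ he hh hU hL ha hS hσ hLσ
  have h0 := num_nonneg C L
  calc (σ ^ 4 * num C L) ^ 2 = σ ^ 6 * num C L * (σ ^ 2 * num C L) := by ring
    _ ≤ _ := mul_le_mul_of_nonneg_right h1 (by positivity)

/-- **6703 (1b)**: a set of levels from `σ` on with `σ⁴ n ≥ κ E0 D2` has `σ² n ≥ κ² E0 / 486`. -/
theorem crit_energy (hδ : 0 ≤ δ) (he : 0 ≤ e) (hh : 0 ≤ h) (hU : UnifP δ A B C G)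
    (hL : LineB e A B C G) (ha : ∀ x ∈ A, ∀ y ∈ B, |a x y| ≤ h)
    (hS : ∀ z, IsSvd A B (sl a G z) (s z) (φ z) (ψ z)) {L : ℤ → Finset A} {σ κ : ℝ} (hσ : 0 < σ)
    (hκ : 0 ≤ κ) (hLσ : ∀ z, ∀ i ∈ L z, σ ≤ s z i) (hD : 0 < D2 δ h A B a)
    (hcr : κ * (E0 e A B a * D2 δ h A B a) ≤ σ ^ 4 * num C L) :
    κ ^ 2 / 486 * E0 e A B a ≤ σ ^ 2 * num C L := by
  have h1 := cnt4 hδ he hh hU hL ha hS hσ hLσ
  have hE := E0_nonneg (A := A) (B := B) he a
  have h0 := num_nonneg C L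
  rcases hE.eq_or_lt with h2 | h2
  · rw [← h2, mul_zero]; positivity
  have h3 := pow_le_pow_left₀ (by positivity) hcr 2
  have h4 := h3.trans h1
  have h5 : 0 < D2 δ h A B a ^ 2 * E0 e A B a := by positivity
  refine le_of_mul_le_mul_left ?_ h5
  calc D2 δ h A B a ^ 2 * E0 e A B a * (κ ^ 2 / 486 * E0 e A B a) =
      (κ * (E0 e A B a * D2 δ h A B a)) ^ 2 / 486 := by ring
    _ ≤ 486 * D2 δ h A B a ^ 2 * E0 e A B a * (σ ^ 2 * num C L) / 486 :=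
        div_le_div_of_nonneg_right h4 (by norm_num)
    _ = _ := by ring

/-- low levels -/
theorem cut_low (hL : LineB e A B C G) (hS : ∀ z, IsSvd A B (sl a G z) (s z) (φ z) (ψ z))
    {L : ℤ → Finset A} {σ : ℝ} (hLσ : ∀ z, ∀ i ∈ L z, s z i ≤ σ) :
    (avg C fun z => ∑ i ∈ L z, s z i ^ 4) ≤ σ ^ 2 * E0 e A B a := by
  refine le_trans ?_ (mul_le_mul_of_nonneg_left (energy_lev hL hS L) (sq_nonneg σ))
  rw [← avg_mul_left]
  refine avg_mono fun z _ => ?_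
  rw [mul_sum]
  refine sum_le_sum fun i hi => ?_
  have h1 := pow_le_pow_left₀ ((hS z).s0 i) (hLσ z i hi) 2
  calc s z i ^ 4 = s z i ^ 2 * s z i ^ 2 := by ring
    _ ≤ σ ^ 2 * s z i ^ 2 := mul_le_mul_of_nonneg_right h1 (sq_nonneg _)

/-- the layers of one number `≥ σ` -/
theorem layer_hi {σ t : ℝ} (hσ : 0 < σ) (ht : σ ≤ t) (J : ℕ) (hJ : t < 2 ^ J * σ) :
    t ^ 4 ≤ 16 * ∑ j ∈ range J, (2 ^ j * σ) ^ 4 * (if 2 ^ j * σ ≤ t then 1 else 0) := by
  induction J with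
  | zero =>
    rw [pow_zero, one_mul] at hJ
    exact absurd hJ (not_lt.2 ht)
  | succ J ih =>
    rw [sum_range_succ]
    have hn : 0 ≤ ∑ j ∈ range J, (2 ^ j * σ) ^ 4 * (if 2 ^ j * σ ≤ t then (1 : ℝ) else 0) :=
      sum_nonneg fun j _ => by split_ifs <;> positivity
    by_cases h : t < 2 ^ J * σ
    · have h1 := ih h
      have h2 : (0 : ℝ) ≤ (2 ^ J * σ) ^ 4 * (if 2 ^ J * σ ≤ t then (1 : ℝ) else 0) := by
        split_ifs <;> positivity
      linarith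
    · rw [not_lt] at h
      rw [if_pos h]
      have h1 : t ^ 4 ≤ (2 * (2 ^ J * σ)) ^ 4 := by
        refine pow_le_pow_left₀ (hσ.le.trans ht) (le_of_lt ?_) 4
        calc t < 2 ^ (J + 1) * σ := hJ
          _ = 2 * (2 ^ J * σ) := by ring
      have h2 : (2 * (2 ^ J * σ)) ^ 4 = 16 * ((2 ^ J * σ) ^ 4 * 1) := by ring
      rw [h2] at h1
      linarith

/-- high levels -/
theorem cut_high (hδ : 0 ≤ δ) (he : 0 ≤ e) (hh : 0 ≤ h) (hU : UnifP δ A B C G)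
    (hL : LineB e A B C G) (ha : ∀ x ∈ A, ∀ y ∈ B, |a x y| ≤ h)
    (hS : ∀ z, IsSvd A B (sl a G z) (s z) (φ z) (ψ z)) {L : ℤ → Finset A} {σ : ℝ} (hσ : 0 < σ)
    (hLσ : ∀ z, ∀ i ∈ L z, σ ≤ s z i) :
    σ ^ 2 * (avg C fun z => ∑ i ∈ L z, s z i ^ 4) ≤
      10368 * D2 δ h A B a ^ 2 * E0 e A B a := by
  classical
  set K : ℝ := 486 * D2 δ h A B a ^ 2 * E0 e A B a with hK
  have hK0 : 0 ≤ K := by have := E0_nonneg (A := A) (B := B) he a; positivity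
  obtain ⟨J, hJ⟩ : ∃ J : ℕ, ∀ z ∈ C, ∀ i, s z i < 2 ^ J * σ := by
    obtain ⟨J, hJ⟩ := pow_unbounded_of_one_lt ((∑ z ∈ C, ∑ i, s z i) / σ) (one_lt_two (α := ℝ))
    refine ⟨J, fun z hz i => ?_⟩
    rw [div_lt_iff₀ hσ] at hJ
    refine lt_of_le_of_lt ?_ hJ
    have t1 : s z i ≤ ∑ i : A, s z i :=
      single_le_sum (f := fun i : A => s z i) (fun i _ => (hS z).s0 i) (mem_univ i)
    have t0 : ∀ w ∈ C, 0 ≤ ∑ i : A, s w i := fun w _ => sum_nonneg fun i _ => (hS w).s0 i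
    have t2 : ∑ i : A, s z i ≤ ∑ w ∈ C, ∑ i : A, s w i :=
      single_le_sum (f := fun w => ∑ i : A, s w i) t0 hz
    exact t1.trans t2
  set Lj : ℕ → ℤ → Finset A := fun j z => (L z).filter fun i => 2 ^ j * σ ≤ s z i with hLj
  have h1 : (avg C fun z => ∑ i ∈ L z, s z i ^ 4) ≤
      ∑ j ∈ range J, 16 * (2 ^ j * σ) ^ 4 * num C (Lj j) := by
    have h2 : (∑ j ∈ range J, 16 * (2 ^ j * σ) ^ 4 * num C (Lj j)) =
        avg C fun z => ∑ j ∈ range J, 16 * (2 ^ j * σ) ^ 4 * ((Lj j z).card : ℝ) := by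
      rw [avg_sum]
      exact sum_congr rfl fun j _ => by unfold num; rw [avg_mul_left]
    rw [h2]
    refine avg_mono fun z hz => ?_
    refine (sum_le_sum fun i hi => layer_hi hσ (hLσ z i hi) J (hJ z hz i)).trans (le_of_eq ?_)
    rw [← mul_sum, sum_comm, mul_sum]
    refine sum_congr rfl fun j _ => ?_
    have t3 : ∑ i ∈ L z, (2 ^ j * σ) ^ 4 * (if 2 ^ j * σ ≤ s z i then (1 : ℝ) else 0) =
        (2 ^ j * σ) ^ 4 * ((Lj j z).card : ℝ) := by
      rw [← mul_sum, hLj, Finset.sum_boole]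
    rw [t3]
    ring
  have h4 : ∑ j ∈ range J, 16 * (2 ^ j * σ) ^ 4 * num C (Lj j) ≤
      ∑ j ∈ range J, (16 * K / σ ^ 2) * (1 / 4 : ℝ) ^ j := by
    refine sum_le_sum fun j _ => ?_
    have hp : 0 < (2 : ℝ) ^ j * σ := by positivity
    have h5 : ((2 : ℝ) ^ j * σ) ^ 6 * num C (Lj j) ≤ K :=
      cnt6' hδ he hh hU hL ha hS hp fun z i hi => (mem_filter.1 hi).2
    have h7 : 16 * ((2 : ℝ) ^ j * σ) ^ 4 * num C (Lj j) =
        16 * (((2 : ℝ) ^ j * σ) ^ 6 * num C (Lj j)) / ((2 : ℝ) ^ j * σ) ^ 2 := by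
      field_simp
    have h8 : 16 * K / σ ^ 2 * (1 / 4 : ℝ) ^ j = 16 * K / ((2 : ℝ) ^ j * σ) ^ 2 := by
      rw [one_div, inv_pow, show (4 : ℝ) = 2 ^ 2 by norm_num, ← pow_mul, mul_comm 2 j, pow_mul]
      field_simp
    rw [h7, h8]
    gcongr
  have h9 : ∑ j ∈ range J, (16 * K / σ ^ 2) * (1 / 4 : ℝ) ^ j ≤ 16 * K / σ ^ 2 * (4 / 3) := by
    rw [← mul_sum]
    have h10 : ∑ j ∈ range J, (1 / 4 : ℝ) ^ j ≤ 4 / 3 := by
      rw [geom_sum_eq (by norm_num)]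
      have : (0 : ℝ) < (1 / 4) ^ J := by positivity
      rw [div_le_iff_of_neg (by norm_num)]
      linarith
    exact mul_le_mul_of_nonneg_left h10 (by positivity)
  have h11 := (h1.trans h4).trans h9
  calc σ ^ 2 * (avg C fun z => ∑ i ∈ L z, s z i ^ 4) ≤ σ ^ 2 * (16 * K / σ ^ 2 * (4 / 3)) :=
        mul_le_mul_of_nonneg_left h11 (sq_nonneg σ)
    _ = 64 / 3 * K := by field_simp; ring
    _ = _ := by rw [hK]; ring

/-- three parts of the levels -/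
theorem sum_split3 {f : ℤ → A → ℝ} {σ σ1 : ℝ} (h1 : σ ≤ σ1) (z : ℤ) :
    ∃ Llo Lhi : Finset A, (∀ i ∈ Llo, s z i ≤ σ) ∧ (∀ i ∈ Lhi, σ1 ≤ s z i) ∧
      ∑ i, f z i = ∑ i ∈ Llo, f z i + ∑ i ∈ band s σ σ1 z, f z i + ∑ i ∈ Lhi, f z i := by
  classical
  refine ⟨univ.filter fun i => s z i < σ, univ.filter fun i => σ1 ≤ s z i,
    fun i hi => (mem_filter.1 hi).2.le, fun i hi => (mem_filter.1 hi).2, ?_⟩
  have e1 : band s σ σ1 z = univ.filter fun i => σ ≤ s z i ∧ s z i < σ1 := by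
    ext i; rw [mem_band]; simp
  rw [e1, sum_filter, sum_filter, sum_filter, ← sum_add_distrib, ← sum_add_distrib]
  refine sum_congr rfl fun i _ => ?_
  by_cases h2 : s z i < σ
  · rw [if_pos h2, if_neg fun h => absurd h.1 (not_le.2 h2),
      if_neg (not_le.2 (h2.trans_le h1)), add_zero, add_zero]
  · rw [not_lt] at h2
    by_cases h3 : s z i < σ1
    · rw [if_neg (not_lt.2 h2), if_pos ⟨h2, h3⟩, if_neg (not_le.2 h3), add_zero, zero_add]
    · rw [if_neg (not_lt.2 h2), if_neg fun h => h3 h.2, if_pos (not_lt.1 h3), add_zero, zero_add]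

/-- **The moment outside the critical band.** -/
theorem moment_split (hδ : 0 ≤ δ) (he : 0 ≤ e) (hh : 0 ≤ h) (hU : UnifP δ A B C G)
    (hL : LineB e A B C G) (ha : ∀ x ∈ A, ∀ y ∈ B, |a x y| ≤ h)
    (hS : ∀ z, IsSvd A B (sl a G z) (s z) (φ z) (ψ z)) {σ σ1 : ℝ} (hσ : 0 < σ) (h1 : σ ≤ σ1) :
    mo4 A B C a G ≤ σ ^ 2 * E0 e A B a + (avg C fun z => ∑ i ∈ band s σ σ1 z, s z i ^ 4) +
      10368 * D2 δ h A B a ^ 2 * E0 e A B a / σ1 ^ 2 := by
  classical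
  have hσ1 : 0 < σ1 := hσ.trans_le h1
  have hsp := fun z => sum_split3 (s := s) (f := fun z i => s z i ^ 4) h1 z
  choose Llo Lhi hlo hhi hsum using hsp
  have e1 : mo4 A B C a G = (avg C fun z => ∑ i ∈ Llo z, s z i ^ 4) +
      (avg C fun z => ∑ i ∈ band s σ σ1 z, s z i ^ 4) + avg C fun z => ∑ i ∈ Lhi z, s z i ^ 4 := by
    unfold mo4
    rw [← avg_add, ← avg_add]
    refine avg_congr fun z _ => ?_
    rw [← hsum z, (hS z).sum_four]
  rw [e1]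
  have t1 := cut_low (C := C) hL hS hlo
  have t2 : (avg C fun z => ∑ i ∈ Lhi z, s z i ^ 4) ≤
      10368 * D2 δ h A B a ^ 2 * E0 e A B a / σ1 ^ 2 := by
    rw [le_div_iff₀ (by positivity), mul_comm]
    exact cut_high hδ he hh hU hL ha hS hσ1 hhi
  linarith

/-- **The critical band carries the moment**, `σ = √(κ D2)`, `σ₁ = √(D2 / κ)`. -/
theorem band_moment (hδ : 0 ≤ δ) (he : 0 ≤ e) (hh : 0 ≤ h) (hU : UnifP δ A B C G)
    (hL : LineB e A B C G) (ha : ∀ x ∈ A, ∀ y ∈ B, |a x y| ≤ h)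
    (hS : ∀ z, IsSvd A B (sl a G z) (s z) (φ z) (ψ z)) {κ : ℝ} (hκ : 0 < κ) (hκ1 : κ ≤ 1)
    (hD : 0 < D2 δ h A B a) :
    mo4 A B C a G ≤ 10369 * κ * (E0 e A B a * D2 δ h A B a) +
      avg C fun z => ∑ i ∈ band s √(κ * D2 δ h A B a) √(D2 δ h A B a / κ) z, s z i ^ 4 := by
  have h1 : √(κ * D2 δ h A B a) ≤ √(D2 δ h A B a / κ) := by
    refine Real.sqrt_le_sqrt ?_
    rw [le_div_iff₀ hκ]
    nlinarith [mul_le_mul hκ1 hκ1 hκ.le zero_le_one]
  have h2 := moment_split hδ he hh hU hL ha hS (Real.sqrt_pos.2 (mul_pos hκ hD)) h1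
  rw [Real.sq_sqrt (by positivity), Real.sq_sqrt (by positivity)] at h2
  refine h2.trans (le_of_eq ?_)
  field_simp
  ring

/-- **Energy of the critical band.** -/
theorem flat_energy (hδ : 0 ≤ δ) (he : 0 ≤ e) (hh : 0 ≤ h) (hU : UnifP δ A B C G)
    (hL : LineB e A B C G) (ha : ∀ x ∈ A, ∀ y ∈ B, |a x y| ≤ h)
    (hS : ∀ z, IsSvd A B (sl a G z) (s z) (φ z) (ψ z)) {κ : ℝ} (hκ : 0 < κ) (hκ1 : κ ≤ 1)
    (hD : 0 < D2 δ h A B a)
    (hcr : 21000 * κ * (E0 e A B a * D2 δ h A B a) ≤ mo4 A B C a G) :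
    10000 * κ ^ 2 * E0 e A B a ≤
      avg C fun z => ∑ i ∈ band s √(κ * D2 δ h A B a) √(D2 δ h A B a / κ) z, s z i ^ 2 := by
  have h1 := band_moment hδ he hh hU hL ha hS hκ hκ1 hD
  have hE := E0_nonneg (A := A) (B := B) he a
  set σ1 := √(D2 δ h A B a / κ) with hσ1
  have h2 : (avg C fun z => ∑ i ∈ band s √(κ * D2 δ h A B a) σ1 z, s z i ^ 4) ≤
      σ1 ^ 2 * avg C fun z => ∑ i ∈ band s √(κ * D2 δ h A B a) σ1 z, s z i ^ 2 := by
    rw [← avg_mul_left]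
    refine avg_mono fun z _ => ?_
    rw [mul_sum]
    refine sum_le_sum fun i hi => ?_
    have h3 := pow_le_pow_left₀ ((hS z).s0 i) (mem_band.1 hi).2.le 2
    calc s z i ^ 4 = s z i ^ 2 * s z i ^ 2 := by ring
      _ ≤ σ1 ^ 2 * s z i ^ 2 := mul_le_mul_of_nonneg_right h3 (sq_nonneg _)
  rw [Real.sq_sqrt (by positivity)] at h2
  set X := avg C fun z => ∑ i ∈ band s √(κ * D2 δ h A B a) σ1 z, s z i ^ 2 with hX
  have h3 : 10000 * κ * (E0 e A B a * D2 δ h A B a) ≤ D2 δ h A B a / κ * X := by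
    have h4 : 0 ≤ κ * (E0 e A B a * D2 δ h A B a) := by positivity
    linarith
  have h5 : 0 < D2 δ h A B a / κ := by positivity
  refine le_of_mul_le_mul_left ?_ h5
  refine le_trans (le_of_eq ?_) h3
  field_simp

/-- **Number of levels in the critical band.** -/
theorem flat_count (hL : LineB e A B C G)
    (hS : ∀ z, IsSvd A B (sl a G z) (s z) (φ z) (ψ z)) {κ : ℝ} (hκ : 0 < κ)
    (hD : 0 < D2 δ h A B a) :
    κ * D2 δ h A B a * num C (band s √(κ * D2 δ h A B a) √(D2 δ h A B a / κ)) ≤ E0 e A B a ∧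
      κ * (avg C fun z => ∑ i ∈ band s √(κ * D2 δ h A B a) √(D2 δ h A B a / κ) z, s z i ^ 2) ≤
        D2 δ h A B a * num C (band s √(κ * D2 δ h A B a) √(D2 δ h A B a / κ)) := by
  constructor
  · have h1 := num_le (C := C) (s := s) (L := band s √(κ * D2 δ h A B a) √(D2 δ h A B a / κ))
      (Real.sqrt_nonneg (κ * D2 δ h A B a)) fun z i hi => (mem_band.1 hi).1
    rw [Real.sq_sqrt (by positivity)] at h1
    exact h1.trans (energy_lev hL hS _)
  · have h1 := le_num (C := C) (s := s) (L := band s √(κ * D2 δ h A B a) √(D2 δ h A B a / κ))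
      (fun z i => (hS z).s0 i) fun z i hi => (mem_band.1 hi).2.le
    rw [Real.sq_sqrt (by positivity)] at h1
    calc κ * _ ≤ κ * (D2 δ h A B a / κ * num C (band s √(κ * D2 δ h A B a)
          √(D2 δ h A B a / κ))) := mul_le_mul_of_nonneg_left h1 hκ.le
      _ = _ := by field_simp

/-! ### the test functions `√(σ s) φ`, `√(σ s) ψ` -/

/-- rows of `√(σ s i) φ i` -/
theorem row_flat {σ : ℝ} (hh : 0 ≤ h) (hL : LineB e A B C G)
    (ha : ∀ x ∈ A, ∀ y ∈ B, |a x y| ≤ h)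
    (hS : ∀ z, IsSvd A B (sl a G z) (s z) (φ z) (ψ z)) {L : ℤ → Finset A}
    (hLσ : ∀ z, ∀ i ∈ L z, σ ≤ s z i) {z : ℤ} (hz : z ∈ C) {x : ℤ} (hx : x ∈ A) :
    ∑ i ∈ L z, σ * s z i * φ z i x ^ 2 ≤ h ^ 2 * e := by
  refine le_trans (sum_le_sum fun i hi => ?_) (((sum_le_sum_of_subset_of_nonneg (subset_univ (L z))
    fun _ _ _ => by positivity).trans (le_of_eq ((hS z).row hx))).trans (row_h hh hL ha hz hx))
  refine mul_le_mul_of_nonneg_right ?_ (sq_nonneg _)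
  rw [sq]
  exact mul_le_mul_of_nonneg_right (hLσ z i hi) ((hS z).s0 i)

/-- columns of `√(σ s i) ψ i` -/
theorem col_flat {σ : ℝ} (hh : 0 ≤ h) (hL : LineB e A B C G)
    (ha : ∀ x ∈ A, ∀ y ∈ B, |a x y| ≤ h)
    (hS : ∀ z, IsSvd A B (sl a G z) (s z) (φ z) (ψ z)) {L : ℤ → Finset A}
    (hLσ : ∀ z, ∀ i ∈ L z, σ ≤ s z i) {z : ℤ} (hz : z ∈ C) {y : ℤ} (hy : y ∈ B) :
    ∑ i ∈ L z, σ * s z i * ψ z i y ^ 2 ≤ h ^ 2 * e := by
  refine le_trans (sum_le_sum fun i hi => ?_) (((sum_le_sum_of_subset_of_nonneg (subset_univ (L z))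
    fun _ _ _ => by positivity).trans (le_of_eq ((hS z).col hy))).trans (col_h hh hL ha hz hy))
  refine mul_le_mul_of_nonneg_right ?_ (sq_nonneg _)
  rw [sq]
  exact mul_le_mul_of_nonneg_right (hLσ z i hi) ((hS z).s0 i)

/-- the mass of `√(σ s i) φ i` and of `√(σ s i) ψ i`, one slice -/
theorem mass_one (hS : ∀ z, IsSvd A B (sl a G z) (s z) (φ z) (ψ z)) (L : ℤ → Finset A) {σ : ℝ}
    (hLσ : ∀ z, ∀ i ∈ L z, 0 < s z i) (z : ℤ) :
    (avg A fun x => ∑ i ∈ L z, σ * s z i * φ z i x ^ 2) = σ * ∑ i ∈ L z, s z i ∧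
      (avg B fun y => ∑ i ∈ L z, σ * s z i * ψ z i y ^ 2) = σ * ∑ i ∈ L z, s z i := by
  constructor
  · rw [avg_sum, mul_sum]
    refine sum_congr rfl fun i _ => ?_
    rw [avg_mul_left, (hS z).norm_phi, mul_one]
  · rw [avg_sum, mul_sum]
    refine sum_congr rfl fun i hi => ?_
    rw [avg_mul_left, (hS z).norm_psi (hLσ z i hi), mul_one]

/-- the mass against the energy -/
theorem mass_lev (hS : ∀ z, IsSvd A B (sl a G z) (s z) (φ z) (ψ z)) {L : ℤ → Finset A} {σ σ1 : ℝ}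
    (hσ : 0 ≤ σ) (hL1 : ∀ z, ∀ i ∈ L z, σ ≤ s z i) (hL2 : ∀ z, ∀ i ∈ L z, s z i ≤ σ1) :
    (avg C fun z => σ * ∑ i ∈ L z, s z i) ≤ (avg C fun z => ∑ i ∈ L z, s z i ^ 2) ∧
      σ * (avg C fun z => ∑ i ∈ L z, s z i ^ 2) ≤ σ1 * avg C fun z => σ * ∑ i ∈ L z, s z i := by
  constructor
  · refine avg_mono fun z _ => ?_
    rw [mul_sum]
    refine sum_le_sum fun i hi => ?_
    rw [sq]
    exact mul_le_mul_of_nonneg_right (hL1 z i hi) ((hS z).s0 i)
  · rw [← avg_mul_left, ← avg_mul_left]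
    refine avg_mono fun z _ => ?_
    have : σ1 * (σ * ∑ i ∈ L z, s z i) = σ * ∑ i ∈ L z, σ1 * s z i := by
      rw [← mul_sum]; ring
    rw [this]
    refine mul_le_mul_of_nonneg_left (sum_le_sum fun i hi => ?_) hσ
    rw [sq]
    exact mul_le_mul_of_nonneg_right (hL2 z i hi) ((hS z).s0 i)

/-- potentials: `avg_x (∑ i, √(σ s i) w i φ i)² ≤ σ σ₁ ∑ w i²`, same with `ψ` -/
theorem pot_lev (hS : ∀ z, IsSvd A B (sl a G z) (s z) (φ z) (ψ z)) {L : ℤ → Finset A} {σ σ1 : ℝ}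
    (hσ : 0 ≤ σ) (hL2 : ∀ z, ∀ i ∈ L z, s z i ≤ σ1) (z : ℤ) (w : A → ℝ) :
    (avg A fun x => (∑ i ∈ L z, √(σ * s z i) * w i * φ z i x) ^ 2) ≤
        σ * σ1 * ∑ i ∈ L z, w i ^ 2 ∧
      (avg B fun y => (∑ i ∈ L z, √(σ * s z i) * w i * ψ z i y) ^ 2) ≤
        σ * σ1 * ∑ i ∈ L z, w i ^ 2 := by
  have key : ∑ i ∈ L z, (√(σ * s z i) * w i) ^ 2 ≤ σ * σ1 * ∑ i ∈ L z, w i ^ 2 := by
    rw [mul_sum]
    refine sum_le_sum fun i hi => ?_
    rw [mul_pow, Real.sq_sqrt (mul_nonneg hσ ((hS z).s0 i))]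
    exact mul_le_mul_of_nonneg_right (mul_le_mul_of_nonneg_left (hL2 z i hi) hσ) (sq_nonneg _)
  exact ⟨((hS z).sumL (L z) fun i => √(σ * s z i) * w i).le.trans key,
    ((hS z).sumR_le (L z) fun i => √(σ * s z i) * w i).trans key⟩

/-- pairing of `G` with `σ⁻¹ a ∑ u v` -/
theorem pair_lev (hS : ∀ z, IsSvd A B (sl a G z) (s z) (φ z) (ψ z)) (L : ℤ → Finset A) :
    (avg C fun z => avg A fun x => avg B fun y => G (x, y, z) *
      (a x y * ∑ i ∈ L z, s z i * (φ z i x * ψ z i y))) = avg C fun z => ∑ i ∈ L z, s z i ^ 2 := by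
  refine avg_congr fun z _ => ?_
  have h1 := (hS z).test (L z) (s z)
  have h2 : ∑ i ∈ L z, s z i ^ 2 = ∑ i ∈ L z, s z i * s z i := sum_congr rfl fun i _ => sq _
  rw [h2, ← h1]
  refine avg_congr fun x _ => avg_congr fun y _ => ?_
  unfold sl
  ring

/-- **Flatness of the critical band**: height squared of `u` and `v` against their mass. -/
theorem height_flat (hδ : 0 ≤ δ) (he : 0 ≤ e) (hh : 0 ≤ h) (hU : UnifP δ A B C G)
    (hL : LineB e A B C G) (ha : ∀ x ∈ A, ∀ y ∈ B, |a x y| ≤ h)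
    (hS : ∀ z, IsSvd A B (sl a G z) (s z) (φ z) (ψ z)) {κ : ℝ} (hκ : 0 < κ) (hκ1 : κ ≤ 1)
    (hD : 0 < D2 δ h A B a)
    (hcr : 21000 * κ * (E0 e A B a * D2 δ h A B a) ≤ mo4 A B C a G) :
    10000 * κ ^ 3 * E0 e A B a ≤ avg C fun z => √(κ * D2 δ h A B a) *
      ∑ i ∈ band s √(κ * D2 δ h A B a) √(D2 δ h A B a / κ) z, s z i := by
  have h1 := flat_energy hδ he hh hU hL ha hS hκ hκ1 hD hcr
  have h2 := (mass_lev (C := C) hS (L := band s √(κ * D2 δ h A B a) √(D2 δ h A B a / κ))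
    (Real.sqrt_nonneg _) (fun z i hi => (mem_band.1 hi).1)
    (fun z i hi => (mem_band.1 hi).2.le)).2
  set X := avg C fun z => √(κ * D2 δ h A B a) *
      ∑ i ∈ band s √(κ * D2 δ h A B a) √(D2 δ h A B a / κ) z, s z i with hX
  have hs : √(κ * D2 δ h A B a) = κ * √(D2 δ h A B a / κ) := by
    rw [show κ * D2 δ h A B a = κ ^ 2 * (D2 δ h A B a / κ) by field_simp,
      Real.sqrt_mul (by positivity), Real.sqrt_sq hκ.le]
  have hp : 0 < √(D2 δ h A B a / κ) := Real.sqrt_pos.2 (by positivity)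
  rw [hs] at h2
  have h3 : √(D2 δ h A B a / κ) * (κ * avg C fun z =>
      ∑ i ∈ band s (κ * √(D2 δ h A B a / κ)) √(D2 δ h A B a / κ) z, s z i ^ 2) ≤
      √(D2 δ h A B a / κ) * X := by
    refine le_trans (le_of_eq ?_) (h2.trans (le_of_eq ?_))
    · ring
    · rw [hX, hs]
  have h4 := le_of_mul_le_mul_left h3 hp
  rw [hs] at h1
  calc 10000 * κ ^ 3 * E0 e A B a = κ * (10000 * κ ^ 2 * E0 e A B a) := by ring
    _ ≤ _ := (mul_le_mul_of_nonneg_left h1 hκ.le).trans h4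

end

end

end Vale.Agent.P141.H694
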